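import Vale.Agent.P151.R3.H860.ESpec

/-!
# P151, R3, block E: the piece E0 (windows of a coarsely dense subgroup)
-/

set_option autoImplicit false

universe u

open Filter Topology Pointwise

namespace Vale.Agent.P151.R3.H452

open Vale.Agent.P151.GB Vale.Agent.P151.R3.H860

section

variable {Γ : Type u} [Group Γ] {L : Len Γ}

/-- The cosets of a product are finitely many translates. -/
theorem cos_mul_subset {A B : Set Γ} (hB : ∀ k ∈ L.K, ∀ b ∈ B, k * b ∈ B) (T : Set Γ)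
    (hT : ∀ a ∈ A, ∃ t ∈ T, t⁻¹ * a ∈ L.K) :
    cos L (A * B) ⊆ ⋃ t ∈ T, (fun x : Γ ⧸ L.K => t • x) '' cos L B := by
  rintro _ ⟨_, ⟨a, ha, b, hb, rfl⟩, rfl⟩
  obtain ⟨t, ht, hk⟩ := hT a ha
  refine Set.mem_iUnion₂.2 ⟨t, ht, _, ⟨_, hB _ hk b hb, rfl⟩, ?_⟩
  show ((t * (t⁻¹ * a * b) : Γ) : Γ ⧸ L.K) = _
  congr 1
  group

/-- Representatives of the cosets. -/
theorem exists_reps (A : Set Γ) : ∃ T : Set Γ, T ⊆ A ∧ (∀ a ∈ A, ∃ t ∈ T, t⁻¹ * a ∈ L.K) ∧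
    Set.InjOn (fun g : Γ => (g : Γ ⧸ L.K)) T ∧ (fun g : Γ => (g : Γ ⧸ L.K)) '' T = cos L A := by
  obtain ⟨T, hT, e⟩ := Set.SurjOn.exists_bijOn_subset
    (Set.surjOn_image (fun g : Γ => (g : Γ ⧸ L.K)) A)
  refine ⟨T, hT, fun a ha => ?_, e.injOn, e.image_eq⟩
  have h1 : ((a : Γ) : Γ ⧸ L.K) ∈ (fun g : Γ => (g : Γ ⧸ L.K)) '' T := by
    rw [e.image_eq]
    exact ⟨a, ha, rfl⟩
  obtain ⟨t, ht, h2⟩ := h1
  exact ⟨t, ht, QuotientGroup.eq.1 h2⟩

theorem cos_mul_finite {A B : Set Γ} (hA : (cos L A).Finite) (hB : (cos L B).Finite)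
    (hK : ∀ k ∈ L.K, ∀ b ∈ B, k * b ∈ B) : (cos L (A * B)).Finite ∧
      (cos L (A * B)).ncard ≤ (cos L A).ncard * (cos L B).ncard := by
  obtain ⟨T, -, h1, h2, h3⟩ := exists_reps (L := L) A
  have hT : T.Finite := by
    rw [← h3] at hA
    exact hA.of_finite_image h2
  have hsub := cos_mul_subset hK T h1
  have hfin : (⋃ t ∈ T, (fun x : Γ ⧸ L.K => t • x) '' cos L B).Finite :=
    hT.biUnion fun t _ => hB.image _
  refine ⟨hfin.subset hsub, (Set.ncard_le_ncard hsub hfin).trans ?_⟩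
  have hc : (cos L A).ncard = T.ncard := by
    rw [← h3, h2.ncard_image]
  rw [hc]
  clear hsub hfin h1 h2 h3 hc
  induction T, hT using Set.Finite.induction_on with
  | empty => simp
  | @insert a s ha hs ih =>
    rw [Set.biUnion_insert, Set.ncard_insert_of_notMem ha hs, add_mul, one_mul, add_comm]
    refine (Set.ncard_union_le _ _).trans (Nat.add_le_add ?_ ih)
    exact Set.ncard_image_le hB

theorem K_mul_mem {P : Set Γ} (hi : ∀ g ∈ P, g⁻¹ ∈ P) (hk : ∀ g ∈ P, ∀ k ∈ L.K, g * k ∈ P) :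
    ∀ k ∈ L.K, ∀ g ∈ P, k * g ∈ P := by
  intro k h g hg
  have h1 := hi _ (hk _ (hi g hg) k⁻¹ (inv_mem h))
  rwa [mul_inv_rev, inv_inv, inv_inv] at h1

theorem K_mul_mem_pow {P : Set Γ} (h : ∀ k ∈ L.K, ∀ g ∈ P, k * g ∈ P) (n : ℕ) :
    ∀ k ∈ L.K, ∀ g ∈ P ^ (n + 1), k * g ∈ P ^ (n + 1) := by
  intro k hk g hg
  rw [pow_succ'] at hg ⊢
  obtain ⟨a, ha, b, hb, rfl⟩ := hg
  refine ⟨k * a, h k hk a ha, b, hb, ?_⟩
  show k * a * b = k * (a * b)
  group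

theorem cos_pow_finite {P : Set Γ} (h : ∀ k ∈ L.K, ∀ g ∈ P, k * g ∈ P) (hf : (cos L P).Finite)
    (n : ℕ) : (cos L (P ^ (n + 1))).Finite := by
  induction n with
  | zero => simpa using hf
  | succ n ih =>
    rw [pow_succ' P (n + 1)]
    exact (cos_mul_finite hf ih (K_mul_mem_pow h n)).1

theorem ball_eq (L : Len Γ) (n : ℕ) : L.ball n = cos L {g | L.ℓ g ≤ n} := rfl

end

theorem e0 : E0.{u} := by
  rintro Γ _ L hL ⟨C, hC⟩ H ⟨R, hR⟩
  refine ⟨4 * C * (L.ball R).ncard, fun w M => ?_⟩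
  obtain ⟨P, hP⟩ := hC (w + R) (2 * M)
  have h1 : (1 : Γ) ∈ P := hP.ball 1 (by rw [L.one]; exact Nat.zero_le _)
  have hKl := K_mul_mem hP.inv hP.mul_K
  have hsq : P ⊆ P ^ 2 := by
    intro g hg
    rw [pow_two]
    exact ⟨g, hg, 1, h1, mul_one g⟩
  obtain ⟨P₁, hP₁⟩ : ∃ P₁ : Set H, P₁ = {h : H | (h : Γ) ∈ P ^ 2} := ⟨_, rfl⟩
  have hmem : ∀ h : H, h ∈ P₁ ↔ (h : Γ) ∈ P ^ 2 := fun h => by rw [hP₁]; rfl
  have himg : ∀ m : ℕ, ∀ h : H, h ∈ P₁ ^ m → (h : Γ) ∈ P ^ (2 * m) := by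
    intro m h hh
    have h2 : H.subtype '' (P₁ ^ m) ⊆ P ^ (2 * m) := by
      rw [Set.image_pow, pow_mul]
      refine Set.pow_subset_pow_left ?_
      rintro _ ⟨x, hx, rfl⟩
      exact (hmem x).1 hx
    exact h2 ⟨h, hh, rfl⟩
  have hcos : ∀ m : ℕ, L.ιH H '' cos (L.restrict H) (P₁ ^ m) ⊆ cos L (P ^ (2 * m)) := by
    rintro m _ ⟨_, ⟨h, hh, rfl⟩, rfl⟩
    exact ⟨h, himg m h hh, rfl⟩
  have hfin : ∀ m : ℕ, 1 ≤ m → (cos L (P ^ (2 * m))).Finite := by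
    intro m hm
    have := cos_pow_finite hKl hP.fin (2 * m - 1)
    rwa [Nat.sub_add_cancel (by omega)] at this
  have hfin₁ : ∀ m : ℕ, 1 ≤ m → (cos (L.restrict H) (P₁ ^ m)).Finite := fun m hm =>
    ((hfin m hm).subset (hcos m)).of_finite_image (L.ιH_injective H).injOn
  have hKH : ∀ k ∈ (L.restrict H).K, ∀ g ∈ P₁, k * g ∈ P₁ := by
    intro k hk g hg
    rw [hmem] at hg ⊢
    exact K_mul_mem_pow hKl 1 k hk g hg
  -- the window is covered by translates of the ball of radius `R`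
  have hcov : (cos L P).ncard ≤ (L.ball R).ncard * (cos (L.restrict H) P₁).ncard := by
    obtain ⟨T, hT1, hT2, hT3, hT4⟩ := exists_reps (L := L.restrict H) P₁
    have hf1 : (cos (L.restrict H) P₁).Finite := by
      have := hfin₁ 1 le_rfl
      rwa [pow_one] at this
    have hTf : T.Finite := by
      rw [← hT4] at hf1
      exact hf1.of_finite_image hT3
    have hsub : cos L P ⊆ ⋃ t ∈ T, (fun x : Γ ⧸ L.K => (t : Γ) • x) '' L.ball R := by
      rintro _ ⟨p, hp, rfl⟩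
      obtain ⟨h, hh, hl⟩ := hR p
      have hx : h⁻¹ * p ∈ P := hP.ball _ (by omega)
      have hh1 : (⟨h, hh⟩ : H) ∈ P₁ := by
        rw [hmem, pow_two]
        refine ⟨p, hp, (h⁻¹ * p)⁻¹, hP.inv _ hx, ?_⟩
        show p * (h⁻¹ * p)⁻¹ = h
        group
      obtain ⟨t, ht, hk⟩ := hT2 _ hh1
      have hk' : L.ℓ ((t : Γ)⁻¹ * h) = 0 := hk
      refine Set.mem_iUnion₂.2 ⟨t, ht, (((t : Γ)⁻¹ * h * (h⁻¹ * p) : Γ) : Γ ⧸ L.K), ?_, ?_⟩
      · rw [L.mem_ball, L.K_mul hk']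
        exact hl
      · show (((t : Γ) * ((t : Γ)⁻¹ * h * (h⁻¹ * p)) : Γ) : Γ ⧸ L.K) = _
        congr 1
        group
    have hfu : (⋃ t ∈ T, (fun x : Γ ⧸ L.K => (t : Γ) • x) '' L.ball R).Finite :=
      hTf.biUnion fun t _ => (hL R).image _
    refine (Set.ncard_le_ncard hsub hfu).trans ?_
    have hc : (cos (L.restrict H) P₁).ncard = T.ncard := by
      rw [← hT4, hT3.ncard_image]
    rw [hc, mul_comm]
    clear hsub hfu hc hT1 hT2 hT3 hT4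
    induction T, hTf using Set.Finite.induction_on with
    | empty => simp
    | @insert a s ha hs ih =>
      rw [Set.biUnion_insert, Set.ncard_insert_of_notMem ha hs, add_mul, one_mul, add_comm]
      refine (Set.ncard_union_le _ _).trans (Nat.add_le_add ?_ ih)
      exact Set.ncard_image_le (hL R)
  refine ⟨P₁, fun g hg => ?_, fun g hg k hk => ?_, ?_, fun g hg => ?_, fun m hm1 hm2 => ?_⟩
  · rw [hmem] at hg ⊢
    rw [pow_two] at hg ⊢
    obtain ⟨a, ha, b, hb, e⟩ := hg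
    refine ⟨b⁻¹, hP.inv b hb, a⁻¹, hP.inv a ha, ?_⟩
    show b⁻¹ * a⁻¹ = ((g⁻¹ : H) : Γ)
    have e' : a * b = g := e
    rw [Subgroup.coe_inv, ← e', mul_inv_rev]
  · rw [hmem] at hg ⊢
    rw [pow_two] at hg ⊢
    obtain ⟨a, ha, b, hb, e⟩ := hg
    refine ⟨a, ha, b * k, hP.mul_K b hb k hk, ?_⟩
    show a * (b * k) = ((g * k : H) : Γ)
    have e' : a * b = g := e
    rw [Subgroup.coe_mul, ← e', mul_assoc]
  · have := hfin₁ 1 le_rfl
    rwa [pow_one] at this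
  · rw [hmem]
    refine hsq (hP.ball _ ?_)
    have : L.ℓ (g : Γ) ≤ w := hg
    omega
  · have h3 : (cos (L.restrict H) (P₁ ^ m)).ncard ≤ (cos L (P ^ (2 * m))).ncard := by
      rw [← Set.ncard_image_of_injective _ (L.ιH_injective H)]
      exact Set.ncard_le_ncard (hcos m) (hfin m hm1)
    have h4 := hP.grow (2 * m) (by omega) (by omega)
    calc (cos (L.restrict H) (P₁ ^ m)).ncard ≤ (cos L (P ^ (2 * m))).ncard := h3
      _ ≤ C * (2 * m) ^ 2 * (cos L P).ncard := h4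
      _ ≤ C * (2 * m) ^ 2 * ((L.ball R).ncard * (cos (L.restrict H) P₁).ncard) :=
          Nat.mul_le_mul_left _ hcov
      _ = 4 * C * (L.ball R).ncard * m ^ 2 * (cos (L.restrict H) P₁).ncard := by ring

end Vale.Agent.P151.R3.H452
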