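import Vale.Agent.P151.R3.H452.SE
import Vale.Agent.P151.R3.H860.ESpec

/-!
# P151, R3, block E: the pieces E1 and E4, and the subexponential half of E7
-/

universe u

open Filter Topology Pointwise

namespace Vale.Agent.P151.R3.H452

open Vale.Agent.P151.GB Vale.Agent.P151.R3.H860

theorem e1 : E1.{u} := fun _Γ _ _L hp hse hc χ hs hk => Len.cg_ker_se hp hse hc χ hs hk

theorem e4 : E4.{u} := fun _Γ _ _L hp hse t N h1 h2 hc χ hχ hk =>
  Len.exists_fixed_hom_se hp hse t N
    (fun g => ⟨fun hg => h1 g hg, fun hg => by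
      have h := h2 _ hg
      have e : t⁻¹ * (t * g * t⁻¹) * t = g := by group
      rwa [e] at h⟩) hc χ hχ hk

end Vale.Agent.P151.R3.H452
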