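import Vale.Agent.P151.R3.H860.ESpec

/-!
# P151, R3, block E: the piece E2 (a ball which does not quadruple forces linear growth)
-/

set_option autoImplicit false

universe u

open Filter Topology Pointwise

namespace Vale.Agent.P151.R3.H452

open Vale.Agent.P151.GB Vale.Agent.P151.R3.H860

section

variable {Γ : Type u} [Group Γ] {L : Len Γ}

/-- The ball of radius `n` around the coset of `g`. -/
def bl (L : Len Γ) (g : Γ) (n : ℕ) : Set (Γ ⧸ L.K) := (fun x : Γ ⧸ L.K => g • x) '' L.ball n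

theorem mem_bl {g h : Γ} {n : ℕ} : (h : Γ ⧸ L.K) ∈ bl L g n ↔ L.ℓ (g⁻¹ * h) ≤ n := by
  constructor
  · rintro ⟨x, ⟨y, hy, rfl⟩, e⟩
    have e' : ((g * y : Γ) : Γ ⧸ L.K) = (h : Γ ⧸ L.K) := e
    have h1 : (g * y)⁻¹ * h ∈ L.K := QuotientGroup.eq.1 e'
    have h2 := L.mul_K (g := y) h1
    have e2 : y * ((g * y)⁻¹ * h) = g⁻¹ * h := by group
    rw [e2] at h2
    rw [h2]
    exact hy
  · intro h1
    refine ⟨((g⁻¹ * h : Γ) : Γ ⧸ L.K), L.mem_ball.2 h1, ?_⟩
    show ((g * (g⁻¹ * h) : Γ) : Γ ⧸ L.K) = _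
    rw [mul_inv_cancel_left]

theorem bl_finite (hL : L.Proper) (g : Γ) (n : ℕ) : (bl L g n).Finite := (hL n).image _

theorem bl_ncard (g : Γ) (n : ℕ) : (bl L g n).ncard = (L.ball n).ncard :=
  Set.ncard_image_of_injective _ (MulAction.injective g)

/-- Geodesics. -/
theorem exists_path (hg : Geo L) : ∀ (n : ℕ) (g : Γ), L.ℓ g = n → ∃ γ : ℕ → Γ, γ 0 = 1 ∧
    L.ℓ ((γ n)⁻¹ * g) = 0 ∧ ∀ i j : ℕ, i ≤ n → j ≤ n → i ≤ j → L.ℓ ((γ i)⁻¹ * γ j) = j - i := by
  intro n
  induction n with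
  | zero =>
    intro g h
    refine ⟨fun _ => 1, rfl, by simpa using h, fun i j hi hj _ => ?_⟩
    have : j - i = 0 := by omega
    rw [this]
    simp [L.one]
  | succ n ih =>
    intro g h
    obtain ⟨x, y, hxy, hx, hy⟩ := hg g n (by omega)
    obtain ⟨γ, h0, hn, hγ⟩ := ih x hx
    have hy1 : L.ℓ y = 1 := by omega
    refine ⟨fun i => if i ≤ n then γ i else g, by simp [h0], by simp [L.one], ?_⟩
    intro i j hi hj hij
    by_cases hjn : j ≤ n
    · have hin : i ≤ n := by omega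
      simp only [hin, hjn, if_true]
      exact hγ i j hin hjn hij
    · have hj1 : j = n + 1 := by omega
      by_cases hin : i ≤ n
      · simp only [hin, hjn, if_true, if_false]
        have h1 := hγ i n hin le_rfl hin
        have h2 : L.ℓ ((γ i)⁻¹ * g) ≤ (n - i) + 1 := by
          have e : (γ i)⁻¹ * g = ((γ i)⁻¹ * γ n) * (((γ n)⁻¹ * x) * y) := by rw [hxy]; group
          have h3 := L.mul ((γ i)⁻¹ * γ n) (((γ n)⁻¹ * x) * y)
          have h4 := L.mul ((γ n)⁻¹ * x) y
          rw [← e] at h3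
          omega
        have h3 : L.ℓ (γ i) = i := by
          have := hγ 0 i (Nat.zero_le _) hin (Nat.zero_le _)
          rw [h0] at this
          simpa using this
        have h4 := L.mul (γ i) ((γ i)⁻¹ * g)
        rw [mul_inv_cancel_left] at h4
        omega
      · simp only [hin, hjn, if_false]
        have : j - i = 0 := by omega
        rw [this]
        simp [L.one]

end

theorem e2 : E2.{u} := by
  intro Γ _ L hL hg hinf r hr hV n
  obtain ⟨N, hN⟩ : ∃ N, N = n + 4 * r + 2 := ⟨_, rfl⟩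
  -- a long element
  obtain ⟨g, hgl⟩ : ∃ g : Γ, L.ℓ g = 2 * N := by
    have h1 : ∃ g : Γ, 2 * N ≤ L.ℓ g := by
      by_contra hcon
      push Not at hcon
      refine hinf.not_finite ?_
      refine Set.finite_univ_iff.1 ((hL (2 * N)).subset fun x _ => ?_)
      induction x using QuotientGroup.induction_on with
      | H g => exact L.mem_ball.2 (hcon g).le
    obtain ⟨g, h1⟩ := h1
    obtain ⟨x, y, -, hx, -⟩ := hg g (2 * N) h1
    exact ⟨x, hx⟩
  obtain ⟨γ, h0, -, hγ⟩ := exists_path hg (2 * N) g hgl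
  obtain ⟨δ, hδ⟩ : ∃ δ : ℕ → Γ, ∀ i, δ i = (γ N)⁻¹ * γ i := ⟨_, fun _ => rfl⟩
  have hd : ∀ i j : ℕ, i ≤ 2 * N → j ≤ 2 * N → i ≤ j → L.ℓ ((δ i)⁻¹ * δ j) = j - i := by
    intro i j hi hj hij
    rw [hδ, hδ, ← hγ i j hi hj hij]
    congr 1
    group
  have hd' : ∀ i j : ℕ, i ≤ 2 * N → j ≤ 2 * N → i ≤ j → L.ℓ ((δ j)⁻¹ * δ i) = j - i := by
    intro i j hi hj hij
    rw [← hd i j hi hj hij, ← L.inv ((δ i)⁻¹ * δ j)]
    congr 1
    group
  have hδN : δ N = 1 := by rw [hδ]; group
  have hlen1 : ∀ i, i ≤ N → L.ℓ (δ i) = N - i := by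
    intro i hi
    have := hd' i N (by omega) (by omega) hi
    rwa [hδN, inv_one, one_mul] at this
  have hlen2 : ∀ i, i ≤ 2 * N → N ≤ i → L.ℓ (δ i) = i - N := by
    intro i hi hi'
    have := hd N i (by omega) hi hi'
    rwa [hδN, inv_one, one_mul] at this
  have htri : ∀ a b c : Γ, L.ℓ (a⁻¹ * c) ≤ L.ℓ (a⁻¹ * b) + L.ℓ (b⁻¹ * c) := by
    intro a b c
    have h := L.mul (a⁻¹ * b) (b⁻¹ * c)
    have e : a⁻¹ * b * (b⁻¹ * c) = a⁻¹ * c := by group
    rwa [e] at h
  have hsym : ∀ a b : Γ, L.ℓ (a⁻¹ * b) = L.ℓ (b⁻¹ * a) := by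
    intro a b
    rw [← L.inv (a⁻¹ * b)]
    congr 1
    group
  have hdisj : ∀ a b : Γ, 2 * r + 1 ≤ L.ℓ (a⁻¹ * b) → Disjoint (bl L a r) (bl L b r) := by
    intro a b hab
    rw [Set.disjoint_left]
    intro x
    induction x using QuotientGroup.induction_on with
    | H x =>
      intro h1 h2
      rw [mem_bl] at h1 h2
      have h3 := htri a x b
      rw [hsym b x] at h2
      omega
  -- every point of the ball is close to the geodesic
  have key : ∀ h : Γ, L.ℓ h ≤ n → ∃ i, i ≤ 2 * N ∧ L.ℓ ((δ i)⁻¹ * h) ≤ 2 * r := by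
    intro h hh
    by_contra hcon
    push Not at hcon
    obtain ⟨η, k0, k1, k2⟩ := exists_path hg (L.ℓ h) h rfl
    have hlast : ∀ i, i ≤ 2 * N → 2 * r + 1 ≤ L.ℓ ((δ i)⁻¹ * η (L.ℓ h)) := by
      intro i hi
      have h1 := hcon i hi
      have h2 := htri (δ i) (η (L.ℓ h)) h
      omega
    classical
    have hex : ∃ j, ∀ i, i ≤ 2 * N → 2 * r + 1 ≤ L.ℓ ((δ i)⁻¹ * η j) := ⟨_, hlast⟩
    obtain ⟨j, hj⟩ : ∃ j, j = Nat.find hex := ⟨_, rfl⟩
    have hj1 : ∀ i, i ≤ 2 * N → 2 * r + 1 ≤ L.ℓ ((δ i)⁻¹ * η j) := by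
      rw [hj]; exact Nat.find_spec hex
    have hj2 : j ≤ L.ℓ h := by rw [hj]; exact Nat.find_min' hex hlast
    have hj0 : j ≠ 0 := by
      intro h1
      have h2 := hj1 N (by omega)
      rw [h1, k0, hδN, inv_one, one_mul, L.one] at h2
      omega
    have hj3 : ¬ ∀ i, i ≤ 2 * N → 2 * r + 1 ≤ L.ℓ ((δ i)⁻¹ * η (j - 1)) := by
      refine Nat.find_min hex ?_
      omega
    push Not at hj3
    obtain ⟨i, hi, hij⟩ := hj3
    have hz : L.ℓ ((δ i)⁻¹ * η j) = 2 * r + 1 := by
      have h1 := hj1 i hi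
      have h2 := htri (δ i) (η (j - 1)) (η j)
      have h3 := k2 (j - 1) j (by omega) hj2 (by omega)
      omega
    have hη : L.ℓ (η j) = j := by
      have := k2 0 j (Nat.zero_le _) hj2 (Nat.zero_le _)
      rw [k0] at this
      simpa using this
    have hδi : L.ℓ (δ i) ≤ n + (2 * r + 1) := by
      have h1 := htri 1 (η j) (δ i)
      rw [inv_one, one_mul, one_mul, hsym (η j) (δ i)] at h1
      omega
    have hi1 : 2 * r + 1 ≤ i := by
      by_contra hc
      have := hlen1 i (by omega)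
      omega
    have hi2 : i + (2 * r + 1) ≤ 2 * N := by
      by_contra hc
      have := hlen2 i hi (by omega)
      omega
    -- four disjoint balls
    obtain ⟨A, hA⟩ : ∃ A, A = bl L (δ (i - (2 * r + 1))) r := ⟨_, rfl⟩
    obtain ⟨B, hB⟩ : ∃ B, B = bl L (δ i) r := ⟨_, rfl⟩
    obtain ⟨C, hC⟩ : ∃ C, C = bl L (δ (i + (2 * r + 1))) r := ⟨_, rfl⟩
    obtain ⟨D, hD⟩ : ∃ D, D = bl L (η j) r := ⟨_, rfl⟩
    have dAB : Disjoint A B := by
      rw [hA, hB]
      refine hdisj _ _ ?_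
      rw [hd _ _ (by omega) hi (by omega)]
      omega
    have dAC : Disjoint A C := by
      rw [hA, hC]
      refine hdisj _ _ ?_
      rw [hd _ _ (by omega) hi2 (by omega)]
      omega
    have dBC : Disjoint B C := by
      rw [hB, hC]
      refine hdisj _ _ ?_
      rw [hd _ _ hi hi2 (by omega)]
      omega
    have dAD : Disjoint A D := by
      rw [hA, hD]
      exact hdisj _ _ (hj1 _ (by omega))
    have dBD : Disjoint B D := by
      rw [hB, hD]
      exact hdisj _ _ (hj1 _ hi)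
    have dCD : Disjoint C D := by
      rw [hC, hD]
      exact hdisj _ _ (hj1 _ hi2)
    have hsub : ∀ c : Γ, L.ℓ ((δ i)⁻¹ * c) ≤ 2 * r + 1 → bl L c r ⊆ bl L (δ i) (3 * r + 1) := by
      intro c hc x
      induction x using QuotientGroup.induction_on with
      | H x =>
        intro h1
        rw [mem_bl] at h1 ⊢
        have h2 := htri (δ i) c x
        omega
    have hU : A ∪ B ∪ C ∪ D ⊆ bl L (δ i) (3 * r + 1) := by
      refine Set.union_subset (Set.union_subset (Set.union_subset ?_ ?_) ?_) ?_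
      · rw [hA]
        refine hsub _ ?_
        rw [hd' _ _ (by omega) hi (by omega)]
        omega
      · rw [hB]
        refine hsub _ ?_
        rw [inv_mul_cancel, L.one]
        omega
      · rw [hC]
        refine hsub _ ?_
        rw [hd _ _ hi hi2 (by omega)]
        omega
      · rw [hD]
        exact hsub _ hz.le
    have hcard := Set.ncard_le_ncard hU (bl_finite hL _ _)
    have fA : A.Finite := by rw [hA]; exact bl_finite hL _ _
    have fB : B.Finite := by rw [hB]; exact bl_finite hL _ _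
    have fC : C.Finite := by rw [hC]; exact bl_finite hL _ _
    have fD : D.Finite := by rw [hD]; exact bl_finite hL _ _
    rw [Set.ncard_union_eq (Set.disjoint_union_left.2 ⟨Set.disjoint_union_left.2 ⟨dAD, dBD⟩, dCD⟩)
        ((fA.union fB).union fC) fD,
      Set.ncard_union_eq (Set.disjoint_union_left.2 ⟨dAC, dBC⟩) (fA.union fB) fC,
      Set.ncard_union_eq dAB fA fB, hA, hB, hC, hD, bl_ncard, bl_ncard, bl_ncard, bl_ncard,
      bl_ncard] at hcard
    omega
  -- covering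
  have hsub : L.ball n ⊆ ⋃ i ∈ Finset.Icc (N - (n + 2 * r)) (N + (n + 2 * r)),
      bl L (δ i) (2 * r) := by
    intro x
    induction x using QuotientGroup.induction_on with
    | H x =>
      intro hx
      rw [L.mem_ball] at hx
      obtain ⟨i, hi, hix⟩ := key x hx
      have h1 := htri 1 x (δ i)
      rw [inv_one, one_mul, one_mul, hsym x (δ i)] at h1
      refine Set.mem_iUnion₂.2 ⟨i, Finset.mem_Icc.2 ?_, mem_bl.2 hix⟩
      rcases le_total i N with h | h
      · have := hlen1 i h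
        omega
      · have := hlen2 i hi h
        omega
  have hfin : (⋃ i ∈ Finset.Icc (N - (n + 2 * r)) (N + (n + 2 * r)),
      bl L (δ i) (2 * r)).Finite :=
    (Finset.finite_toSet _).biUnion fun i _ => bl_finite hL _ _
  refine (Set.ncard_le_ncard hsub hfin).trans ?_
  refine (Finset.set_ncard_biUnion_le _ _).trans ?_
  rw [Finset.sum_congr rfl fun i _ => bl_ncard (L := L) (δ i) (2 * r), Finset.sum_const,
    Nat.card_Icc, smul_eq_mul]
  refine Nat.mul_le_mul_right _ ?_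
  omega

end Vale.Agent.P151.R3.H452
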