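import Vale.Agent.P151.R3.H452.E14

/-!
# P151, R3, block E: the pieces E6 and E7
-/

set_option autoImplicit false

universe u

open Filter Topology Pointwise

namespace Vale.Agent.P151.R3.H452

open Vale.Agent.P151.GB Vale.Agent.P151.R3.H860


theorem cg_dense {Γ : Type u} [Group Γ] (L : Len Γ) (H : Subgroup Γ) (hd : Dense L H)
    (hc : L.CG) : (L.restrict H).CG := by
  obtain ⟨R, hR⟩ := hc
  obtain ⟨R', hd⟩ := hd
  rw [Len.restrict_cg_iff]
  refine ⟨2 * R' + R, ?_⟩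
  obtain ⟨S, hS⟩ : ∃ S : Subgroup Γ, S = Subgroup.closure {g | g ∈ H ∧ L.ℓ g ≤ 2 * R' + R} :=
    ⟨_, rfl⟩
  rw [← hS]
  have hSH : S ≤ H := by
    rw [hS, Subgroup.closure_le]
    exact fun g hg => hg.1
  have hmem : ∀ g ∈ H, L.ℓ g ≤ 2 * R' + R → g ∈ S := fun g h1 h2 => by
    rw [hS]
    exact Subgroup.subset_closure ⟨h1, h2⟩
  have step : ∀ g a : Γ, L.ℓ a ≤ R → (∃ s ∈ S, ∃ x, g = s * x ∧ L.ℓ x ≤ R') →
      ∃ s ∈ S, ∃ x, g * a = s * x ∧ L.ℓ x ≤ R' := by
    rintro g a ha ⟨s, hs, x, rfl, hx⟩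
    obtain ⟨h, hh, hl⟩ := hd (x * a)
    refine ⟨s * h, mul_mem hs (hmem h hh ?_), h⁻¹ * (x * a), by group, hl⟩
    have e : h = (x * a) * (h⁻¹ * (x * a))⁻¹ := by group
    have h1 := L.mul (x * a) (h⁻¹ * (x * a))⁻¹
    rw [← e, L.inv] at h1
    have h2 := L.mul x a
    omega
  have key : ∀ g : Γ, ∃ s ∈ S, ∃ x, g = s * x ∧ L.ℓ x ≤ R' := by
    intro g
    have hg : g ∈ Subgroup.closure {g | L.ℓ g ≤ R} := by rw [hR]; trivial
    induction hg using Subgroup.closure_induction_right with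
    | one => exact ⟨1, one_mem _, 1, by simp, by rw [L.one]; exact Nat.zero_le _⟩
    | mul_right x hx y hy ih => exact step x y hy ih
    | mul_inv_cancel x hx y hy ih => exact step x y⁻¹ (by rw [L.inv]; exact hy) ih
  refine le_antisymm hSH fun g hg => ?_
  obtain ⟨s, hs, x, rfl, hx⟩ := key g
  refine mul_mem hs (hmem x ?_ (by omega))
  have := mul_mem (inv_mem (hSH hs)) hg
  rwa [inv_mul_cancel_left] at this

theorem e7 : E7.{u} := fun _Γ _ L H hd =>
  ⟨fun hc => cg_dense L H hd hc, fun hp hse => Len.SE.restrict hp hse H⟩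


theorem e6 : E6.{u} := by
  intro Γ _ L hL hc f hf hfK hne
  obtain ⟨R, hR⟩ := hc
  obtain ⟨g₀, hg₀⟩ := hne
  have hf1 : f 1 = 0 := by
    have := hf 1 1
    rw [mul_one] at this
    exact left_eq_add.1 this
  have hfi : ∀ g, f g⁻¹ = - f g := by
    intro g
    have := hf g⁻¹ g
    rw [inv_mul_cancel, hf1] at this
    exact eq_neg_of_add_eq_zero_left this.symm
  let F : Additive Γ →+ ℝ := AddMonoidHom.mk' (fun x => f x.toMul) (fun x y => hf _ _)
  let M : Submodule ℤ ℝ := AddSubgroup.toIntSubmodule F.range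
  have hM : ∀ {e : ℝ}, e ∈ M ↔ ∃ x : Γ, f x = e := by
    intro e
    constructor
    · rintro ⟨x, hx⟩; exact ⟨x.toMul, hx⟩
    · rintro ⟨x, hx⟩; exact ⟨Additive.ofMul x, hx⟩
  have hfin : (f '' {g | L.ℓ g ≤ R}).Finite := by
    let G : Γ ⧸ L.K → ℝ := Quotient.lift f (fun a b hab => by
        have h1 : a⁻¹ * b ∈ L.K := QuotientGroup.leftRel_apply.1 hab
        have h2 : f (a⁻¹ * b) = 0 := hfK _ h1
        rw [hf, hfi] at h2
        linarith)
    refine ((hL R).image G).subset ?_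
    rintro _ ⟨g, hg, rfl⟩
    exact ⟨(g : Γ ⧸ L.K), ⟨g, hg, rfl⟩, rfl⟩
  have hspan : M = Submodule.span ℤ (f '' {g | L.ℓ g ≤ R}) := by
    apply le_antisymm
    · intro e he
      obtain ⟨x, rfl⟩ := hM.1 he
      have hx : x ∈ Subgroup.closure {g : Γ | L.ℓ g ≤ R} := by rw [hR]; trivial
      clear he
      induction hx using Subgroup.closure_induction with
      | mem x hx => exact Submodule.subset_span ⟨x, hx, rfl⟩
      | one => rw [hf1]; exact Submodule.zero_mem _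
      | mul x y _ _ hx hy => rw [hf]; exact Submodule.add_mem _ hx hy
      | inv x _ hx => rw [hfi]; exact Submodule.neg_mem _ hx
    · rw [Submodule.span_le]
      rintro _ ⟨g, _, rfl⟩
      exact hM.2 ⟨g, rfl⟩
  have hMfin : Module.Finite ℤ M := by
    rw [Module.Finite.iff_fg, hspan]
    exact Submodule.fg_span hfin
  have htf : Module.IsTorsionFree ℤ M := inferInstance
  have hfree : Module.Free ℤ M := Module.free_of_finite_type_torsion_free'
  let b : Module.Basis (Fin (Module.finrank ℤ M)) ℤ M := Module.finBasis ℤ M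
  have hpos : 0 < Module.finrank ℤ M := by
    by_contra h0
    have h0 : Module.finrank ℤ M = 0 := by omega
    have : IsEmpty (Fin (Module.finrank ℤ M)) := by rw [h0]; infer_instance
    have : Subsingleton M := b.repr.toEquiv.subsingleton
    have h1 : (⟨f g₀, hM.2 ⟨g₀, rfl⟩⟩ : M) = 0 := Subsingleton.elim _ _
    exact hg₀ (congrArg Subtype.val h1)
  let i : Fin (Module.finrank ℤ M) := ⟨0, hpos⟩
  let c : Γ → ℤ := fun x => b.repr ⟨f x, hM.2 ⟨x, rfl⟩⟩ i
  have hcm : ∀ x y, c (x * y) = c x + c y := by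
    intro x y
    have : (⟨f (x * y), hM.2 ⟨x * y, rfl⟩⟩ : M) =
        ⟨f x, hM.2 ⟨x, rfl⟩⟩ + ⟨f y, hM.2 ⟨y, rfl⟩⟩ := Subtype.ext (hf x y)
    simp only [c, this, map_add, Finsupp.coe_add, Pi.add_apply]
  let χ : Γ →* Multiplicative ℤ := MonoidHom.mk' (fun x => Multiplicative.ofAdd (c x))
    (fun x y => by rw [hcm, ofAdd_add])
  refine ⟨χ, ?_, ?_⟩
  · obtain ⟨x, hx⟩ := hM.1 (b i).2
    have hcx : c x = 1 := by
      have : (⟨f x, hM.2 ⟨x, rfl⟩⟩ : M) = b i := Subtype.ext hx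
      simp only [c, this, Module.Basis.repr_self, Finsupp.single_eq_same]
    intro n
    refine ⟨x ^ n.toAdd, ?_⟩
    rw [map_zpow]
    have : χ x = Multiplicative.ofAdd 1 := by
      show Multiplicative.ofAdd (c x) = _
      rw [hcx]
    rw [this, ← ofAdd_zsmul, smul_eq_mul, mul_one, ofAdd_toAdd]
  · intro g hg
    show Multiplicative.ofAdd (c g) = 1
    have : (⟨f g, hM.2 ⟨g, rfl⟩⟩ : M) = 0 := Subtype.ext (hfK g hg)
    simp only [c, this, map_zero, Finsupp.coe_zero, Pi.zero_apply, ofAdd_zero]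

end Vale.Agent.P151.R3.H452
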