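import Vale.Agent.P151.GB.Cg
import Vale.Agent.P151.GB.B3b

/-!
# P151, block E: subexponential versions of Milnor's lemma and of the eigenvalue lemma

The landed statements `cg_ker` (kernels of homomorphisms onto `ℤ` are coarsely connected) and
`exists_fixed_hom` with the hypothesis weak polynomial growth replaced by subexponential growth.
-/

set_option autoImplicit false

universe u

open Filter Topology Matrix

namespace Vale.Agent.P151.GB

namespace Len

variable {Γ : Type u} [Group Γ] {L : Len Γ}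

/-- Subexponential growth: for every `C` the inequality `2 ^ m ≤ |B_{C m}|` fails for some `m`. -/
def SE (L : Len Γ) : Prop := ∀ C : ℕ, ∃ m : ℕ, (L.ball (C * m)).ncard < 2 ^ m

theorem SE.restrict (hL : L.Proper) (h : L.SE) (H : Subgroup Γ) : (L.restrict H).SE := fun C => by
  obtain ⟨m, hm⟩ := h C
  exact ⟨m, (ncard_restrict_le hL H _).trans_lt hm⟩

theorem WG.se {D : ℕ} (hp : L.Proper) (hw : L.WG D) : L.SE := by
  intro C
  by_contra h
  push Not at h
  exact not_exp hp hw C h

theorem not_exp_se (hs : L.SE) (C : ℕ) (h : ∀ m : ℕ, 2 ^ m ≤ (L.ball (C * m)).ncard) : False := by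
  obtain ⟨m, hm⟩ := hs C
  exact absurd (h m) (not_le.2 hm)

/-- **Milnor's lemma**, with stabilisers. -/
theorem milnor_se (hp : L.Proper) (hs : L.SE) (t : Γ) (U : Set Γ) (R : ℕ)
    (hU : ∀ u ∈ U, L.ℓ u ≤ R) (hK : ∀ g, L.ℓ g = 0 → g ∈ U) :
    ∃ j, ∀ u ∈ U, t ^ (j + 1) * u * (t ^ (j + 1))⁻¹ ∈ mP t U j := by
  classical
  by_contra hcon
  push Not at hcon
  choose u hu hu' using hcon
  -- distinct words
  have key : ∀ m : ℕ, ∀ ε ε' : ℕ → Bool, ((mw t u ε m : Γ) : Γ ⧸ L.K) = (mw t u ε' m : Γ) →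
      ∀ i < m, ε i = ε' i := by
    intro m
    induction m with
    | zero => intro ε ε' _ i hi; omega
    | succ m ih =>
      intro ε ε' h i hi
      have hsub : ∀ ε ε' : ℕ → Bool, ε m = true → ε' m = false →
          ((mw t u ε (m + 1) : Γ) : Γ ⧸ L.K) ≠ (mw t u ε' (m + 1) : Γ) := by
        intro ε ε' h1 h2 h
        rw [mw, mw, h1, h2, if_pos rfl, if_neg Bool.false_ne_true, one_mul,
          QuotientGroup.eq] at h
        refine hu' m ?_
        have h3 : mw t u ε m ∈ mP t U m := mw_mem hu ε m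
        have h4 : mw t u ε' m ∈ mP t U m := mw_mem hu ε' m
        have h5 : (t ^ (m + 1) * u m * (t ^ (m + 1))⁻¹ * mw t u ε m)⁻¹ * mw t u ε' m ∈
            mP t U m := mem_mP_zero (hK _ h)
        have e : t ^ (m + 1) * u m * (t ^ (m + 1))⁻¹ = mw t u ε' m *
            ((t ^ (m + 1) * u m * (t ^ (m + 1))⁻¹ * mw t u ε m)⁻¹ * mw t u ε' m)⁻¹ *
            (mw t u ε m)⁻¹ := by group
        rw [e]
        exact mul_mem (mul_mem h4 (inv_mem h5)) (inv_mem h3)
      have hm : ε m = ε' m := by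
        rcases Bool.eq_false_or_eq_true (ε m) with h1 | h1 <;>
          rcases Bool.eq_false_or_eq_true (ε' m) with h2 | h2
        · rw [h1, h2]
        · exact absurd h (hsub ε ε' h1 h2)
        · exact absurd h.symm (hsub ε' ε h2 h1)
        · rw [h1, h2]
      rcases Nat.lt_succ_iff_lt_or_eq.1 hi with h1 | h1
      · refine ih ε ε' ?_ i h1
        rw [mw, mw, hm, QuotientGroup.eq] at h
        rw [QuotientGroup.eq]
        convert h using 1
        group
      · rw [h1]; exact hm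
  -- counting
  refine not_exp_se hs (R + 2 * L.ℓ t) fun m => ?_
  let f : (Fin m → Bool) → Γ ⧸ L.K := fun ε =>
    ((mw t u (fun i => if h : i < m then ε ⟨i, h⟩ else false) m : Γ) : Γ ⧸ L.K)
  have hf : Function.Injective f := by
    intro ε ε' h
    funext i
    have := key m _ _ h i i.2
    simpa using this
  have h1 : Set.range f ⊆ L.ball ((R + 2 * L.ℓ t) * m) := by
    rintro _ ⟨ε, rfl⟩
    rw [mem_ball]
    have h2 := mw_len (L := L) (t := t) (u := u) (fun j => hU _ (hu j))
      (fun i => if h : i < m then ε ⟨i, h⟩ else false) m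
    have h3 := L.mul (t ^ m) ((t ^ m)⁻¹ * mw t u (fun i => if h : i < m then ε ⟨i, h⟩ else false) m)
    rw [mul_inv_cancel_left] at h3
    have h4 := pow_len (L := L) t m
    have h5 : (R + 2 * L.ℓ t) * m = (R + L.ℓ t) * m + L.ℓ t * m := by ring
    omega
  have h2 := Set.ncard_le_ncard h1 (hp _)
  have h3 : (Set.range f).ncard = 2 ^ m := by
    rw [← Set.image_univ, Set.ncard_image_of_injective _ hf, Set.ncard_univ]
    simp
  omega

/-- all the conjugates by positive powers -/
theorem milnor_all_se (hp : L.Proper) (hs : L.SE) (t : Γ) (U : Set Γ) (R : ℕ)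
    (hU : ∀ u ∈ U, L.ℓ u ≤ R) (hK : ∀ g, L.ℓ g = 0 → g ∈ U) :
    ∃ j, ∀ (i : ℕ), ∀ u ∈ U, t ^ i * u * (t ^ i)⁻¹ ∈ mP t U j := by
  obtain ⟨j, hj⟩ := milnor_se hp hs t U R hU hK
  refine ⟨j, fun i => ?_⟩
  have hconj : ∀ x ∈ mP t U j, t * x * t⁻¹ ∈ mP t U j := by
    intro x hx
    rw [mP] at hx
    induction hx using Subgroup.closure_induction with
    | mem x hx =>
      obtain ⟨k, hk, u, hu, rfl⟩ := hx
      have e : t * (t ^ k * u * (t ^ k)⁻¹) * t⁻¹ = t ^ (k + 1) * u * (t ^ (k + 1))⁻¹ := by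
        rw [pow_succ']; group
      rw [e]
      rcases Nat.lt_or_ge k j with h | h
      · exact mem_mP h hu
      · have : k = j := le_antisymm hk h
        rw [this]
        exact hj u hu
    | one => simp [one_mem]
    | mul x y _ _ hx hy =>
      have e : t * (x * y) * t⁻¹ = (t * x * t⁻¹) * (t * y * t⁻¹) := by group
      rw [e]
      exact mul_mem hx hy
    | inv x _ hx =>
      have e : t * x⁻¹ * t⁻¹ = (t * x * t⁻¹)⁻¹ := by group
      rw [e]
      exact inv_mem hx
  induction i with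
  | zero => intro u hu; simpa using mem_mP_zero hu
  | succ i ih =>
    intro u hu
    have h1 := hconj _ (ih u hu)
    have e : t * (t ^ i * u * (t ^ i)⁻¹) * t⁻¹ = t ^ (i + 1) * u * (t ^ (i + 1))⁻¹ := by
      rw [pow_succ']; group
    rwa [e] at h1

/-- **The kernel of a homomorphism onto `ℤ` is coarsely connected.** -/
theorem cg_ker_se (hp : L.Proper) (hse : L.SE) (hc : L.CG) (χ : Γ →* Multiplicative ℤ)
    (hs : Function.Surjective χ) (hk : ∀ g, L.ℓ g = 0 → χ g = 1) : (L.restrict χ.ker).CG := by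
  classical
  obtain ⟨R, hR⟩ := hc
  obtain ⟨t, ht⟩ := hs (Multiplicative.ofAdd 1)
  have htz : ∀ k : ℤ, χ (t ^ k) = Multiplicative.ofAdd k := fun k => by
    rw [map_zpow, ht, ← ofAdd_zsmul, smul_eq_mul, mul_one]
  -- the exponent is bounded on the generators
  obtain ⟨M, hM⟩ : ∃ M : ℕ, ∀ g, L.ℓ g ≤ R → (Multiplicative.toAdd (χ g)).natAbs ≤ M := by
    let F : Γ ⧸ L.K → Multiplicative ℤ := Quotient.lift χ (by
      intro a b hab
      have h1 : a⁻¹ * b ∈ L.K := QuotientGroup.leftRel_apply.1 hab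
      have h2 := hk _ h1
      rw [map_mul, map_inv] at h2
      exact (inv_mul_eq_one.1 h2))
    obtain ⟨M, hM⟩ := ((hp R).image fun x => (Multiplicative.toAdd (F x)).natAbs).bddAbove
    exact ⟨M, fun g hg => hM ⟨(g : Γ ⧸ L.K), L.mem_ball.2 hg, rfl⟩⟩
  obtain ⟨R0, hR0⟩ : ∃ R0, R0 = R + L.ℓ t * M := ⟨_, rfl⟩
  obtain ⟨U, hU⟩ : ∃ U : Set Γ, U = {g | g ∈ χ.ker ∧ L.ℓ g ≤ R0} := ⟨_, rfl⟩
  have hU1 : ∀ u ∈ U, L.ℓ u ≤ R0 := fun u hu => by rw [hU] at hu; exact hu.2
  have hU2 : ∀ g, L.ℓ g = 0 → g ∈ U := fun g hg => by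
    rw [hU]; exact ⟨hk g hg, by rw [hg]; exact Nat.zero_le _⟩
  obtain ⟨j, hj⟩ := milnor_all_se hp hse t U R0 hU1 hU2
  obtain ⟨j', hj'⟩ := milnor_all_se hp hse t⁻¹ U R0 hU1 hU2
  obtain ⟨J, hJ⟩ : ∃ J, J = j + j' := ⟨_, rfl⟩
  obtain ⟨Q, hQ⟩ : ∃ Q : Subgroup Γ, Q = Subgroup.closure
      {g | g ∈ χ.ker ∧ L.ℓ g ≤ R0 + 2 * (L.ℓ t * J)} := ⟨_, rfl⟩
  have hgen : ∀ (k : ℤ), k.natAbs ≤ J → ∀ u ∈ U, t ^ k * u * (t ^ k)⁻¹ ∈ Q := by
    intro k hk' u hu
    rw [hQ]
    refine Subgroup.subset_closure ⟨?_, ?_⟩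
    · refine χ.normal_ker.conj_mem u ?_ _
      rw [hU] at hu
      exact hu.1
    · have h1 := L.mul (t ^ k * u) (t ^ k)⁻¹
      have h2 := L.mul (t ^ k) u
      rw [L.inv] at h1
      have h3 := zpow_len (L := L) t k
      have h4 := hU1 u hu
      have h5 : L.ℓ t * k.natAbs ≤ L.ℓ t * J := Nat.mul_le_mul_left _ hk'
      show L.ℓ (t ^ k * u * (t ^ k)⁻¹) ≤ _
      omega
  have hPQ : mP t U j ≤ Q := by
    rw [mP, Subgroup.closure_le]
    rintro _ ⟨i, hi, u, hu, rfl⟩
    have := hgen i (by rw [Int.natAbs_natCast]; omega) u hu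
    rwa [zpow_natCast] at this
  have hPQ' : mP t⁻¹ U j' ≤ Q := by
    rw [mP, Subgroup.closure_le]
    rintro _ ⟨i, hi, u, hu, rfl⟩
    have := hgen (-i) (by rw [Int.natAbs_neg, Int.natAbs_natCast]; omega) u hu
    rwa [_root_.zpow_neg, zpow_natCast, ← inv_pow] at this
  have hall : ∀ (k : ℤ), ∀ u ∈ U, t ^ k * u * (t ^ k)⁻¹ ∈ Q := by
    intro k u hu
    obtain ⟨n, rfl | rfl⟩ := k.eq_nat_or_neg
    · rw [zpow_natCast]
      exact hPQ (hj n u hu)
    · rw [_root_.zpow_neg, zpow_natCast, ← inv_pow]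
      exact hPQ' (hj' n u hu)
  have hUQ : ∀ u ∈ U, u ∈ Q := fun u hu => by
    have := hall 0 u hu
    simpa using this
  -- `Q` is also generated by the conjugates of `U`
  have hQk : Q ≤ χ.ker := by
    rw [hQ, Subgroup.closure_le]
    exact fun g hg => hg.1
  obtain ⟨P, hP⟩ : ∃ P : Subgroup Γ, P = Subgroup.closure
      {x | ∃ k : ℤ, ∃ u ∈ U, x = t ^ k * u * (t ^ k)⁻¹} := ⟨_, rfl⟩
  have hPU : P ≤ Q := by
    rw [hP, Subgroup.closure_le]
    rintro _ ⟨k, u, hu, rfl⟩
    exact hall k u hu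
  have hPconj : ∀ (k : ℤ), ∀ x ∈ P, t ^ k * x * (t ^ k)⁻¹ ∈ P := by
    intro k x hx
    rw [hP] at hx
    induction hx using Subgroup.closure_induction with
    | mem x hx =>
      obtain ⟨l, u, hu, rfl⟩ := hx
      rw [hP]
      refine Subgroup.subset_closure ⟨k + l, u, hu, ?_⟩
      rw [_root_.zpow_add]; group
    | one => simp [one_mem]
    | mul x y _ _ hx hy =>
      have e : t ^ k * (x * y) * (t ^ k)⁻¹ = (t ^ k * x * (t ^ k)⁻¹) * (t ^ k * y * (t ^ k)⁻¹) := by
        group
      rw [e]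
      exact mul_mem hx hy
    | inv x _ hx =>
      have e : t ^ k * x⁻¹ * (t ^ k)⁻¹ = (t ^ k * x * (t ^ k)⁻¹)⁻¹ := by group
      rw [e]
      exact inv_mem hx
  have hdec : ∀ g : Γ, g * (t ^ (Multiplicative.toAdd (χ g)))⁻¹ ∈ P := by
    intro g
    have hg : g ∈ Subgroup.closure {g | L.ℓ g ≤ R} := by rw [hR]; trivial
    induction hg using Subgroup.closure_induction with
    | mem s hs =>
      have h1 : s * (t ^ (Multiplicative.toAdd (χ s)))⁻¹ ∈ U := by
        rw [hU]
        refine ⟨?_, ?_⟩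
        · rw [MonoidHom.mem_ker, map_mul, map_inv, htz]
          simp
        · have h2 := L.mul s (t ^ (Multiplicative.toAdd (χ s)))⁻¹
          rw [L.inv] at h2
          have h3 := zpow_len (L := L) t (Multiplicative.toAdd (χ s))
          have h4 : L.ℓ t * (Multiplicative.toAdd (χ s)).natAbs ≤ L.ℓ t * M :=
            Nat.mul_le_mul_left _ (hM s hs)
          have h5 : L.ℓ s ≤ R := hs
          show L.ℓ (s * (t ^ (Multiplicative.toAdd (χ s)))⁻¹) ≤ _
          omega
      rw [hP]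
      refine Subgroup.subset_closure ⟨0, _, h1, ?_⟩
      simp
    | one => simp [one_mem]
    | mul x y _ _ hx hy =>
      have h1 := hPconj (Multiplicative.toAdd (χ x)) _ hy
      have e : x * y * (t ^ (Multiplicative.toAdd (χ (x * y))))⁻¹ =
          (x * (t ^ (Multiplicative.toAdd (χ x)))⁻¹) *
          (t ^ (Multiplicative.toAdd (χ x)) * (y * (t ^ (Multiplicative.toAdd (χ y)))⁻¹) *
            (t ^ (Multiplicative.toAdd (χ x)))⁻¹) := by
        rw [map_mul, toAdd_mul, _root_.zpow_add]; group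
      rw [e]
      exact mul_mem hx h1
    | inv x _ hx =>
      have h1 := hPconj (-Multiplicative.toAdd (χ x)) _ (inv_mem hx)
      have e : x⁻¹ * (t ^ (Multiplicative.toAdd (χ x⁻¹)))⁻¹ =
          t ^ (-Multiplicative.toAdd (χ x)) * (x * (t ^ (Multiplicative.toAdd (χ x)))⁻¹)⁻¹ *
            (t ^ (-Multiplicative.toAdd (χ x)))⁻¹ := by
        rw [map_inv, toAdd_inv, _root_.zpow_neg]; group
      rw [e]
      exact h1
  rw [restrict_cg_iff]
  refine ⟨R0 + 2 * (L.ℓ t * J), ?_⟩
  rw [← hQ]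
  refine le_antisymm hQk fun g hg => hPU ?_
  have h1 := hdec g
  rw [MonoidHom.mem_ker] at hg
  rw [hg] at h1
  simpa using h1

/-- **No exponential eigenvalue.** -/
theorem norm_le_one_se (hL : L.Proper) (hS : L.SE) {N : Subgroup Γ} {c : N →* N} {B : ℕ}
    (hc : ∀ g : N, L.ℓ (c g) ≤ L.ℓ g + B) {φ : N → ℂ} (hφ : ∀ g h, φ (g * h) = φ g + φ h)
    (hφK : ∀ g : N, L.ℓ g = 0 → φ g = 0) {μ : ℂ} (hμ : ∀ g, φ (c g) = μ * φ g) {x : N}
    (hx : φ x ≠ 0) : ‖μ‖ ≤ 1 := by
  by_contra hcon
  push Not at hcon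
  obtain ⟨j, hj⟩ := pow_unbounded_of_one_lt 2 hcon
  -- the iterate
  have hcj : ∀ (i : ℕ) (g : N), L.ℓ (c^[i] g) ≤ L.ℓ g + i * B := by
    intro i
    induction i with
    | zero => intro g; simp
    | succ i ih =>
      intro g
      rw [Function.iterate_succ_apply']
      have h1 := hc (c^[i] g)
      have h2 := ih g
      have : (i + 1) * B = i * B + B := by ring
      omega
  have hφj : ∀ (i : ℕ) (g : N), φ (c^[i] g) = μ ^ i * φ g := by
    intro i
    induction i with
    | zero => intro g; simp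
    | succ i ih => intro g; rw [Function.iterate_succ_apply', hμ, ih, pow_succ]; ring
  have hφ1 : φ 1 = 0 := by
    have := hφ 1 1
    rw [mul_one] at this
    exact left_eq_add.1 this
  have hφi : ∀ g, φ g⁻¹ = - φ g := by
    intro g
    have := hφ g⁻¹ g
    rw [inv_mul_cancel, hφ1] at this
    exact eq_neg_of_add_eq_zero_left this.symm
  set u : List Bool → N := word (fun g => c^[j] g) x with hu
  have hval : ∀ l, φ (u l) = φ x * pval (μ ^ j) l := by
    intro l
    induction l with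
    | nil => simp [hu, word, pval, hφ1]
    | cons b l ih =>
      have : u (b :: l) = (if b then x else 1) * c^[j] (u l) := rfl
      rw [this, hφ, hφj, ih, pval]
      cases b
      · simp [hφ1]; ring
      · simp; ring
  set C : ℕ := L.ℓ x + j * B + 1 with hC
  have hlen : ∀ l, L.ℓ (u l) ≤ l.length * C := by
    intro l
    induction l with
    | nil => simp [hu, word, L.one]
    | cons b l ih =>
      have e : u (b :: l) = (if b then x else 1) * c^[j] (u l) := rfl
      have h1 : L.ℓ ((if b then x else 1 : N) : Γ) ≤ L.ℓ x := by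
        cases b
        · simp [L.one]
        · simp
      have h2 := L.mul ((if b then x else 1 : N) : Γ) ((c^[j] (u l) : N) : Γ)
      have h3 := hcj j (u l)
      rw [e, List.length_cons, Subgroup.coe_mul]
      have : (l.length + 1) * C = l.length * C + C := by ring
      omega
  have hμj : 2 ≤ ‖μ ^ j‖ := by rw [norm_pow]; exact hj.le
  -- the words of length `n` give distinct cosets
  have hcard : ∀ n : ℕ, 2 ^ n ≤ (L.ball (n * C)).ncard := by
    intro n
    let f : (Fin n → Bool) → Γ ⧸ L.K := fun v => ((u (List.ofFn v) : N) : Γ)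
    have hf : Function.Injective f := by
      intro v v' h
      by_contra hne
      have h1 : ((u (List.ofFn v) : N) : Γ)⁻¹ * ((u (List.ofFn v') : N) : Γ) ∈ L.K :=
        QuotientGroup.eq.1 h
      have h2 : φ ((u (List.ofFn v))⁻¹ * u (List.ofFn v')) = 0 := hφK _ h1
      rw [hφ, hφi, hval, hval] at h2
      have h3 : φ x * (pval (μ ^ j) (List.ofFn v') - pval (μ ^ j) (List.ofFn v)) = 0 := by
        linear_combination h2
      have h4 := (mul_eq_zero.1 h3).resolve_left hx
      have h5 := pval_sep hμj (List.ofFn v') (List.ofFn v) (by simp)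
        (fun h => hne (List.ofFn_injective h).symm)
      rw [h4, norm_zero] at h5
      norm_num at h5
    have hsub : Set.range f ⊆ L.ball (n * C) := by
      rintro _ ⟨v, rfl⟩
      refine L.mem_ball.2 ?_
      have := hlen (List.ofFn v)
      rwa [List.length_ofFn] at this
    calc 2 ^ n = (Set.range f).ncard := by
          rw [← Set.image_univ, Set.ncard_image_of_injective _ hf, Set.ncard_univ]
          simp
      _ ≤ (L.ball (n * C)).ncard := Set.ncard_le_ncard hsub (hL _)
  obtain ⟨m, hm⟩ := hS C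
  have h8 := hcard m
  rw [mul_comm C m] at hm
  omega

/-- **B3b.** In weak polynomial growth, if `t` normalises the coarsely connected subgroup `N`,
which has a nonzero homomorphism to `ℤ` killing the elements of length `0`, then some power of `t`
fixes such a homomorphism. -/
theorem exists_fixed_hom_se (hL : L.Proper) (hS : L.SE) (t : Γ) (N : Subgroup Γ)
    (hN : ∀ g, g ∈ N ↔ t * g * t⁻¹ ∈ N) (hCG : (L.restrict N).CG)
    (χ : N →* Multiplicative ℤ) (hχ : χ ≠ 1) (hχK : ∀ g : N, L.ℓ g = 0 → χ g = 1) :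
    ∃ m : ℕ, 0 < m ∧ ∃ ψ : N →* Multiplicative ℤ, ψ ≠ 1 ∧ (∀ g : N, L.ℓ g = 0 → ψ g = 1) ∧
      ∀ g h : N, (h : Γ) = t ^ m * g * (t ^ m)⁻¹ → ψ h = ψ g := by
  classical
  have := EE_finite (N := N) hL hCG
  have : Module.IsTorsionFree ℤ (EE L N) := inferInstance
  have : Module.Free ℤ (EE L N) := Module.free_of_finite_type_torsion_free'
  set k := Module.finrank ℤ (EE L N) with hk
  let b : Module.Basis (Fin k) ℤ (EE L N) := Module.finBasis ℤ (EE L N)
  let T : EE L N →ₗ[ℤ] EE L N := (Φ hL t hN).restrict (Φ_mem hL t hN)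
  let A : Matrix (Fin k) (Fin k) ℤ := LinearMap.toMatrix b b T
  let co : N → (Fin k → ℤ) := fun x => b.repr ⟨ev x, ev_mem x⟩
  have hcomul : ∀ x y, co (x * y) = co x + co y := by
    intro x y
    have : (⟨ev (x * y), ev_mem (x * y)⟩ : EE L N) = ⟨ev x, ev_mem x⟩ + ⟨ev y, ev_mem y⟩ :=
      Subtype.ext (ev_mul x y)
    simp only [co, this, map_add, Finsupp.coe_add]
  have hcoc : ∀ x, co (conjN t hN x) = A *ᵥ co x := by
    intro x
    have h1 := LinearMap.toMatrix_mulVec_repr b b T ⟨ev x, ev_mem x⟩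
    have h2 : T ⟨ev x, ev_mem x⟩ = ⟨ev (conjN t hN x), ev_mem _⟩ := rfl
    rw [h2] at h1
    exact h1.symm
  have hcoK : ∀ x : N, L.ℓ x = 0 → co x = 0 := by
    intro x hx
    have : (⟨ev x, ev_mem x⟩ : EE L N) = 0 := by
      apply Subtype.ext
      funext ψ
      have := ψ.2 x hx
      simp [ev, this]
    simp only [co, this, map_zero, Finsupp.coe_zero]
  have hbas : ∀ i : Fin k, ∃ x : N, co x = Pi.single i 1 := by
    intro i
    obtain ⟨x, hx⟩ := mem_EE.1 (b i).2
    refine ⟨x, ?_⟩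
    have : (⟨ev x, ev_mem x⟩ : EE L N) = b i := Subtype.ext hx
    simp only [co, this, Module.Basis.repr_self]
    funext j
    rw [Finsupp.single_apply, Pi.single_apply]
    simp [eq_comm]
  have hkpos : 0 < k := by
    by_contra h0
    have h0 : k = 0 := by omega
    apply hχ
    ext x
    have h1 : (⟨ev x, ev_mem x⟩ : EE L N) = 0 := by
      have : IsEmpty (Fin k) := by rw [h0]; infer_instance
      have : Subsingleton (EE L N) := b.repr.toEquiv.subsingleton
      exact Subsingleton.elim _ _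
    have h2 := congrFun (congrArg Subtype.val h1) ⟨χ, hχK⟩
    have h3 : (χ x).toAdd = 0 := h2
    rw [MonoidHom.one_apply]
    exact h3
  have hdet : A.det ≠ 0 := by
    intro h
    obtain ⟨v, hv, hv2⟩ := Matrix.exists_mulVec_eq_zero_iff.2 h
    set e : EE L N := b.equivFun.symm v with he
    have h1 : b.repr e = v := by
      have := b.equivFun.apply_symm_apply v
      rw [← he] at this
      exact this
    have h2 := LinearMap.toMatrix_mulVec_repr b b T e
    rw [h1] at h2
    have h3 : b.repr (T e) = 0 := by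
      apply DFunLike.coe_injective
      rw [← h2]
      exact hv2
    have h4 : T e = 0 := b.repr.map_eq_zero_iff.1 h3
    have h5 : Φ hL t hN e = 0 := congrArg Subtype.val h4
    have h6 : (e : KHom L N → ℤ) = 0 := Φ_injective hL t hN (by rw [h5, map_zero])
    have h7 : e = 0 := Subtype.ext h6
    apply hv
    rw [← h1, h7]; simp
  have hlen : ∀ g : N, L.ℓ (conjN t hN g) ≤ L.ℓ g + 2 * L.ℓ t := by
    intro g
    rw [conjN_coe]
    have h1 := L.mul (t * g) t⁻¹
    have h2 := L.mul t g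
    rw [L.inv] at h1
    omega
  obtain ⟨m, hm, w, hw, hw2⟩ := H854.exists_pow_fixed hkpos A hdet (by
    intro μ v hv hv2
    obtain ⟨i, hi⟩ := Function.ne_iff.1 hv
    obtain ⟨x, hx⟩ := hbas i
    let φ : N → ℂ := fun g => v ⬝ᵥ (fun j => ((co g j : ℤ) : ℂ))
    refine norm_le_one_se (φ := φ) (x := x) hL hS hlen ?_ ?_ ?_ ?_
    · intro g h
      simp only [φ, hcomul, Pi.add_apply, Int.cast_add]
      exact dotProduct_add _ _ _
    · intro g hg
      simp only [φ, hcoK g hg, Pi.zero_apply, Int.cast_zero]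
      exact dotProduct_zero _
    · intro g
      have h1 : (fun j => ((co (conjN t hN g) j : ℤ) : ℂ)) =
          (A.map (Int.castRingHom ℂ)) *ᵥ (fun j => ((co g j : ℤ) : ℂ)) := by
        funext j
        rw [hcoc]
        simp [Matrix.mulVec, dotProduct]
      simp only [φ]
      rw [h1, Matrix.dotProduct_mulVec, hv2, smul_dotProduct, smul_eq_mul]
    · simp only [φ, hx]
      have : (fun j => (((Pi.single i 1 : Fin k → ℤ) j : ℤ) : ℂ)) = Pi.single i 1 := by
        funext j
        by_cases hj : j = i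
        · subst hj; simp
        · simp [hj]
      rw [this, dotProduct_single, mul_one]
      exact hi)
  refine ⟨m, hm, ?_⟩
  have hadd : ∀ g h : N, w ⬝ᵥ co (g * h) = w ⬝ᵥ co g + w ⬝ᵥ co h := by
    intro g h; rw [hcomul, dotProduct_add]
  let ψ : N →* Multiplicative ℤ :=
    MonoidHom.mk' (fun g => Multiplicative.ofAdd (w ⬝ᵥ co g)) (fun g h => by
      rw [hadd, ofAdd_add])
  refine ⟨ψ, ?_, ?_, ?_⟩
  · obtain ⟨i, hi⟩ := Function.ne_iff.1 hw
    obtain ⟨x, hx⟩ := hbas i
    intro h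
    have h1 : ψ x = 1 := by rw [h]; rfl
    have h2 : w ⬝ᵥ co x = 0 := h1
    rw [hx, dotProduct_single, mul_one] at h2
    exact hi h2
  · intro g hg
    have : w ⬝ᵥ co g = 0 := by rw [hcoK g hg, dotProduct_zero]
    exact this
  · have hit : ∀ (n : ℕ) (g : N), co ((conjN t hN)^[n] g) = (A ^ n) *ᵥ co g := by
      intro n
      induction n with
      | zero => intro g; simp
      | succ n ih =>
        intro g
        rw [Function.iterate_succ_apply', hcoc, ih, Matrix.mulVec_mulVec, ← pow_succ']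
    have hcoe : ∀ (n : ℕ) (g : N), (((conjN t hN)^[n] g : N) : Γ) = t ^ n * g * (t ^ n)⁻¹ := by
      intro n
      induction n with
      | zero => intro g; simp
      | succ n ih =>
        intro g
        rw [Function.iterate_succ_apply', conjN_coe, ih, pow_succ']
        group
    intro g h hgh
    have e : h = (conjN t hN)^[m] g := Subtype.ext (by rw [hcoe, hgh])
    have h1 : w ⬝ᵥ co h = w ⬝ᵥ co g := by
      rw [e, hit, Matrix.dotProduct_mulVec, hw2]
    exact h1

end Len

end Vale.Agent.P151.GB
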